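import Vale.Agent.P024.H644.K7
import Vale.Agent.P024.ALL.Spec

/-!
The valuations outside `p` of the Kummer descent of a prime number which is not hit.
-/

namespace Vale.Agent.P024.H114.ALL

open scoped NumberField
open IsDedekindDomain NumberField
open Vale.Agent.P024 Vale.Agent.P024.TR

section

variable {F₁ E₁ F₂ E₂ : Type*} [Field F₁] [NumberField F₁] [Field E₁] [Algebra F₁ E₁]
    [IsGalois F₁ E₁] [Field F₂] [NumberField F₂] [Field E₂] [Algebra F₂ E₂] [IsGalois F₂ E₂]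

/-- Inertia at an alive prime which does not hit `r` acts trivially on the `p`-power roots of
`r`. -/
theorem inertia_fix_root_nat (hE₁ : SolvablyClosed E₁) (hE₂ : SolvablyClosed E₂)
    (α : (E₁ ≃ₐ[F₁] E₁) →* (E₂ ≃ₐ[F₂] E₂)) (hα : Continuous α) {p : ℕ} (hp : p.Prime)
    (hp2 : p ≠ 2) (v : HeightOneSpectrum (𝓞 F₁)) (hv : v ∈ Alive α p) (O : ValuationSubring E₁)
    (hO : O ≠ ⊤) (hOv : IsCenter O v) (t : E₁ ≃ₐ[F₁] E₁) (ht : Stab O t) (ht1 : ActsPow O t 1)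
    (n r : ℕ) (X : E₂) (hX : X ^ (p ^ n) = (r : E₂))
    (hr : ∀ V : ValuationSubring E₂, V ≠ ⊤ → (∀ s, Stab O s → Stab V (α s)) →
      (r : E₂) ∉ V.nonunits) : α t X = X := by
  have : CharZero E₂ := charZero_of_injective_algebraMap (algebraMap F₂ E₂).injective
  have : Algebra.IsAlgebraic ℚ E₂ := Algebra.IsAlgebraic.trans ℚ F₂ E₂
  obtain ⟨V, ⟨hV, hst⟩, -⟩ := existsUnique_ring hE₁ hE₂ α hα hp hp2 O hO v hOv hv
  have hpV := prime_notMem_of_stab hE₁ hE₂ α hα hp hp2 O hO v hOv hv V hV hst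
  have hrV : V.valuation (r : E₂) = 1 :=
    val_eq_one_of_notMem V (by exact_mod_cast intCast_mem V (r : ℤ)) (hr V hV hst)
  have hXV : V.valuation X = 1 := by
    have h1 : V.valuation X ^ (p ^ n) = 1 := by rw [← map_pow, hX, hrV]
    exact (pow_eq_one_iff_of_nonneg zero_le (pow_pos hp.pos n).ne').1 h1
  exact fix_root_of_unit V hV hp hpV (fun k => hE₂.exists_primitiveRoot _ (pow_pos hp.pos k))
    (α t) (hst t ht) (fun k z hz => inertia_fix_root_pow hE₁ hE₂ α hα hp hp2 v hv O hO hOv t ht ht1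
      k z hz) n X hXV (by rw [hX, map_natCast])

/-- The valuations outside `p` of the Kummer descent of a natural number `r` such that no alive
prime corresponds to a prime of the target above `r` are divisible by `p ^ n`. -/
theorem dvd_outside_nat (hE₁ : SolvablyClosed E₁) (hE₂ : SolvablyClosed E₂)
    (α : (E₁ ≃ₐ[F₁] E₁) →* (E₂ ≃ₐ[F₂] E₂)) (hα : Continuous α) {p : ℕ} (hp : p.Prime)
    (hp2 : p ≠ 2) (n : ℕ) (H : Subgroup (E₁ ≃ₐ[F₁] E₁)) (L : IntermediateField F₁ E₁)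
    [NumberField L] (hLH : ∀ g : E₁ ≃ₐ[F₁] E₁, (∀ x ∈ L, g x = x) → g ∈ H)
    {ζ : E₁} (hζ : IsPrimitiveRoot ζ p) (hζL : ζ ∈ L) {ζ₁ : E₁} {ζ₂ : E₂} (r : ℕ) (X : E₂)
    (hX : X ^ (p ^ n) = (r : E₂))
    (hr : ∀ v ∈ Alive α p, ∀ (O : ValuationSubring E₁) (V : ValuationSubring E₂), O ≠ ⊤ → V ≠ ⊤ →
      IsCenter O v → (∀ s, Stab O s → Stab V (α s)) → (r : E₂) ∉ V.nonunits)
    (b : E₁) (hb : Desc α H ζ₁ ζ₂ X b)
    (y : L) (hy : b ^ (p ^ n) = (y : E₁)) (V : HeightOneSpectrum (𝓞 L))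
    (hV : (p : 𝓞 L) ∉ V.asIdeal) :
    ∃ k : ℤ, V.valuation L y = WithZero.exp (((p ^ n : ℕ) : ℤ) * k) := by
  have : CharZero E₁ := charZero_of_injective_algebraMap (algebraMap F₁ E₁).injective
  have : Algebra.IsAlgebraic ℚ E₁ := Algebra.IsAlgebraic.trans ℚ F₁ E₁
  have hy0 : y ≠ 0 := by
    rintro rfl
    have h1 : b ^ (p ^ n) = 0 := by rw [hy]; rfl
    exact hb.1 (pow_eq_zero_iff (pow_pos hp.pos n).ne' |>.1 h1)
  refine dvd_of_inertia_fix (fun m hm => hE₁.exists_primitiveRoot m hm)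
    (fun m hm => hE₁.exists_root m hm) L hp hζ hζL V hV n y hy0 b hy ?_
  intro O hO hOV t htL ht ht1 htp
  have htH := hLH t htL
  have key : α t X = X := by
    by_cases hαt : α t = 1
    · rw [hαt, AlgEquiv.one_apply]
    obtain ⟨v, hv⟩ := exists_center (K := F₁) O hO
    have hpv : (p : 𝓞 F₁) ∉ v.asIdeal := by
      intro h
      apply hV
      have h1 := (hv _).1 h
      rw [hOV]
      simpa using h1
    have hvA : v ∈ Alive α p := ⟨hpv, O, hO, hv, t, ht, ht1, htp, hαt⟩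
    exact inertia_fix_root_nat hE₁ hE₂ α hα hp hp2 v hvA O hO hv t ht ht1 n r X hX
      (fun W hW hst => hr v hvA O W hO hW hv hst)
  have := hb.2 t htH 0 (by rw [key, zpow_zero, one_mul])
  rwa [zpow_zero, one_mul] at this

end

/-- The same in the frame of `ALL/Spec`. -/
theorem dvd_of_notHit {E₁ E₂ : Type*} [Field E₁] [CharZero E₁] [IsGalois ℚ E₁] [Field E₂]
    [CharZero E₂] [IsGalois ℚ E₂] (hE₁ : SolvablyClosed E₁) (hE₂ : SolvablyClosed E₂)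
    {F : IntermediateField ℚ E₁} [NumberField F] (α : (E₁ ≃ₐ[F] E₁) →* (E₂ ≃ₐ[ℚ] E₂))
    (hα : Continuous α) {p : ℕ} (hp : p.Prime) (hp2 : p ≠ 2) (n : ℕ)
    (H : Subgroup (E₁ ≃ₐ[F] E₁)) (L : IntermediateField F E₁) [NumberField L]
    (hLH : ∀ g : E₁ ≃ₐ[F] E₁, (∀ x ∈ L, g x = x) → g ∈ H) {ζ : E₁} (hζ : IsPrimitiveRoot ζ p)
    (hζL : ζ ∈ L) {ζ₁ : E₁} {ζ₂ : E₂} (r : ℕ) (hr : ∀ v ∈ Alive α p, ¬ ALL.Hit α v r) (X : E₂)
    (hX : X ^ (p ^ n) = r) (b : E₁) (hb : TR.Desc α H ζ₁ ζ₂ X b) (y : L)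
    (hy : b ^ (p ^ n) = (y : E₁)) (V : HeightOneSpectrum (𝓞 L)) (hV : (p : 𝓞 L) ∉ V.asIdeal) :
    ∃ k : ℤ, V.valuation L y = WithZero.exp (((p ^ n : ℕ) : ℤ) * k) :=
  dvd_outside_nat hE₁ hE₂ α hα hp hp2 n H L hLH hζ hζL r X hX
    (fun v hv O W hO hW hOv hst hrW => hr v hv ⟨O, W, hO, hW, hOv, hst, hrW⟩) b hb y hy V hV

end Vale.Agent.P024.H114.ALL
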