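import Vale.Agent.P024.H114.Alv

/-!
A product of powers of distinct prime numbers is not a high power in a fixed number field.
-/

namespace Vale.Agent.P024.H114.ALL

open scoped NumberField
open IsDedekindDomain NumberField
open Vale.Agent.P024

theorem exists_exp_val {K : Type*} [Field K] [NumberField K] {r : ℕ} (hr : r.Prime)
    (P : HeightOneSpectrum (𝓞 K)) (hP : (r : 𝓞 K) ∈ P.asIdeal) :
    ∃ e : ℕ, 0 < e ∧ P.valuation K (r : K) = WithZero.exp (-(e : ℤ)) := by
  have hr0 : (r : K) ≠ 0 := Nat.cast_ne_zero.mpr hr.ne_zero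
  have h0 : P.valuation K (r : K) ≠ 0 := (Valuation.ne_zero_iff _).mpr hr0
  have h1 : P.valuation K (r : K) < 1 := by
    have h2 : (r : K) = algebraMap (𝓞 K) K (r : 𝓞 K) := by simp
    rw [h2, P.valuation_lt_one_iff_mem]
    exact hP
  set a : ℤ := WithZero.log (P.valuation K (r : K)) with ha
  have h3 : P.valuation K (r : K) = WithZero.exp a := (WithZero.exp_log h0).symm
  have h4 : a < 0 := by
    rw [h3, ← WithZero.exp_zero, WithZero.exp_lt_exp] at h1
    exact h1
  refine ⟨a.natAbs, Int.natAbs_pos.mpr h4.ne, ?_⟩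
  rw [h3]
  congr 1
  omega

theorem end_nat {K : Type*} [Field K] [NumberField K] {p : ℕ} (hp : p.Prime) {m : ℕ}
    (r : Fin m → ℕ) (hr : ∀ i, (r i).Prime) (hinj : Function.Injective r) (M : ℕ) (hM : 0 < M) :
    ∃ n₀ : ℕ, ∀ n, n₀ ≤ n → ∀ c : Fin m → ℤ, (∃ i, ¬ (p : ℤ) ∣ c i) →
      ¬ ∃ Y : K, Y ^ (p ^ n) = (∏ i, (r i : K) ^ (c i)) ^ M := by
  choose P hP using fun i => exists_above K (hr i)
  choose e he0 he using fun i => exists_exp_val (hr i) (P i) (hP i)
  refine ⟨M * ∑ i, e i + 1, ?_⟩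
  rintro n hn c ⟨i, hi⟩ ⟨Y, hY⟩
  have hval : ∀ j, j ≠ i → (P i).valuation K (r j : K) = 1 := by
    intro j hj
    refine le_antisymm ?_ (not_lt.mp ?_)
    · have h2 : (r j : K) = algebraMap (𝓞 K) K (r j : 𝓞 K) := by simp
      rw [h2]
      exact (P i).valuation_le_one _
    · intro h
      have h2 : (r j : K) = algebraMap (𝓞 K) K (r j : 𝓞 K) := by simp
      rw [h2, (P i).valuation_lt_one_iff_mem] at h
      exact hj (hinj (prime_unique (hr j) (hr i) (P i) h (hP i)))
  have hprod : (P i).valuation K (∏ j, (r j : K) ^ (c j)) = WithZero.exp (-(e i : ℤ) * c i) := by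
    rw [map_prod, Finset.prod_eq_single i]
    · rw [map_zpow₀, he, ← WithZero.exp_zsmul]
      congr 1
      simp [mul_comm]
    · intro j _ hj
      rw [map_zpow₀, hval j hj, one_zpow]
    · intro h
      exact absurd (Finset.mem_univ i) h
  have hY0 : Y ≠ 0 := by
    rintro rfl
    rw [zero_pow (pow_pos hp.pos n).ne'] at hY
    have h1 := congrArg ((P i).valuation K) hY
    rw [map_zero, map_pow, hprod, ← WithZero.exp_nsmul] at h1
    exact WithZero.exp_ne_zero h1.symm
  have hv0 : (P i).valuation K Y ≠ 0 := (Valuation.ne_zero_iff _).mpr hY0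
  set b : ℤ := WithZero.log ((P i).valuation K Y) with hb
  have hvY : (P i).valuation K Y = WithZero.exp b := (WithZero.exp_log hv0).symm
  have h1 := congrArg ((P i).valuation K) hY
  rw [map_pow, map_pow, hprod, hvY, ← WithZero.exp_nsmul, ← WithZero.exp_nsmul,
    WithZero.exp_inj, nsmul_eq_mul, nsmul_eq_mul] at h1
  have h2 : ((p ^ n : ℕ) : ℤ) ∣ ((M * e i : ℕ) : ℤ) * c i := ⟨-b, by
    push_cast at h1 ⊢
    linear_combination h1⟩
  have h3 : IsCoprime (((p ^ n : ℕ) : ℤ)) (c i) := by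
    rw [Nat.cast_pow]
    exact IsCoprime.pow_left ((Prime.coprime_iff_not_dvd (Nat.prime_iff_prime_int.1 hp)).2 hi)
  have h4 := h3.dvd_of_dvd_mul_right h2
  have h5 : p ^ n ∣ M * e i := by exact_mod_cast h4
  have h6 := Nat.le_of_dvd (Nat.mul_pos hM (he0 i)) h5
  have h7 : n < p ^ n := Nat.lt_pow_self hp.one_lt
  have h8 : e i ≤ ∑ j, e j := Finset.single_le_sum (fun j _ => Nat.zero_le (e j)) (Finset.mem_univ i)
  have h9 := Nat.mul_le_mul_left M h8
  omega

end Vale.Agent.P024.H114.ALL
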