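import Vale.Agent.P024.H644.K2

/-!
Kummer descents of products.
-/

namespace Vale.Agent.P024.TR

section

variable {F₁ E₁ F₂ E₂ : Type*} [Field F₁] [Field E₁] [Algebra F₁ E₁] [IsGalois F₁ E₁]
    [Field F₂] [Field E₂] [Algebra F₂ E₂] [IsGalois F₂ E₂]

theorem zpow_sum_aux {E ι : Type*} [Field E] {z : E} (hz : z ≠ 0) (s : Finset ι) (f : ι → ℤ) :
    z ^ (∑ i ∈ s, f i) = ∏ i ∈ s, z ^ f i := by
  classical
  induction s using Finset.induction_on with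
  | empty => simp
  | insert a s ha ih => rw [Finset.sum_insert ha, Finset.prod_insert ha, zpow_add₀ hz, ih]

theorem Desc.prod_zpow {α : (E₁ ≃ₐ[F₁] E₁) →* (E₂ ≃ₐ[F₂] E₂)}
    {H : Subgroup (E₁ ≃ₐ[F₁] E₁)} {N : ℕ} (hN : 0 < N)
    {ζ₁ : E₁} (hζ₁ : IsPrimitiveRoot ζ₁ N) {ζ₂ : E₂} (hζ₂ : IsPrimitiveRoot ζ₂ N)
    {ι : Type*} (s : Finset ι) {X : ι → E₂} (hX : ∀ i ∈ s, X i ≠ 0)
    (hHX : ∀ i ∈ s, ∀ g ∈ H, α g (X i ^ N) = X i ^ N) {b : ι → E₁}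
    (hb : ∀ i ∈ s, Desc α H ζ₁ ζ₂ (X i) (b i)) (c : ι → ℤ) :
    Desc α H ζ₁ ζ₂ (∏ i ∈ s, X i ^ c i) (∏ i ∈ s, b i ^ c i) := by
  classical
  have hζ₁0 := hζ₁.ne_zero hN.ne'
  have hζ₂0 := hζ₂.ne_zero hN.ne'
  refine ⟨Finset.prod_ne_zero_iff.mpr fun i hi => zpow_ne_zero _ (hb i hi).1, ?_⟩
  intro g hg e he
  have hex : ∀ i ∈ s, ∃ u : ℤ, α g (X i) = ζ₂ ^ u * X i := fun i hi =>
    exists_zexp hζ₂ hN (hX i hi) (by rw [← map_pow, hHX i hi g hg])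
  choose! u hu using hex
  have hX0 : (∏ i ∈ s, X i ^ c i) ≠ 0 :=
    Finset.prod_ne_zero_iff.mpr fun i hi => zpow_ne_zero _ (hX i hi)
  have h1 : α g (∏ i ∈ s, X i ^ c i) = ζ₂ ^ (∑ i ∈ s, u i * c i) * ∏ i ∈ s, X i ^ c i := by
    rw [map_prod, zpow_sum_aux hζ₂0, ← Finset.prod_mul_distrib]
    refine Finset.prod_congr rfl fun i hi => ?_
    rw [map_zpow₀, hu i hi, mul_zpow, ← zpow_mul]
  have h2 : g (∏ i ∈ s, b i ^ c i) = ζ₁ ^ (∑ i ∈ s, u i * c i) * ∏ i ∈ s, b i ^ c i := by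
    rw [map_prod, zpow_sum_aux hζ₁0, ← Finset.prod_mul_distrib]
    refine Finset.prod_congr rfl fun i hi => ?_
    rw [map_zpow₀, (hb i hi).2 g hg (u i) (hu i hi), mul_zpow, ← zpow_mul]
  rw [h1] at he
  rw [h2, (zexp_tr hζ₁ hζ₂ hN _ _).2 (mul_right_cancel₀ hX0 he)]

end

end Vale.Agent.P024.TR
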